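import Vale.Agent.P095JS.All
import Vale.Agent.P095JS.Side101

/-! The Jiang-Su algebra exists, and a unital separable C*-algebra absorbs it if and only if its
central sequence algebra has no characters. -/

namespace Vale.Agent.Results.P101.NoCharactersIffAbsorbs

universe u

open Vale.Agent.P101 Vale.Agent.JS

theorem result : ∃ (Z : Type u) (_ : CStarAlgebra Z),
    (IsJiangSuZ Z ∧ ∀ (Z' : Type u) [CStarAlgebra Z'], IsJiangSuZ Z' → Nonempty (Z ≃⋆ₐ[ℂ] Z')) ∧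
    ∀ (A : Type u) [CStarAlgebra A],
      (∃ (B : Type u) (_ : CStarAlgebra B) (i : A →⋆ₐ[ℂ] B) (j : Z →⋆ₐ[ℂ] B),
        IsTensorCompletion i j) ∧
      (TopologicalSpace.SeparableSpace A → ∀ (ω : Ultrafilter ℕ),
        (ω : Filter ℕ) ≤ Filter.cofinite → ∀ (B : Type u) [CStarAlgebra B] (i : A →⋆ₐ[ℂ] B)
          (j : Z →⋆ₐ[ℂ] B), IsTensorCompletion i j →
            ((¬ ∃ χ : (ℕ → A) → ℂ, IsCharacter (ω : Filter ℕ) χ) ↔ Nonempty (A ≃⋆ₐ[ℂ] B))) := by
  obtain ⟨Z, _, hZ, hnil⟩ := exists_jiangSu Side101.absorption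
  refine ⟨Z, inferInstance, ⟨hZ, fun Z' _ hZ' => hZ.unique Side101.absorption hZ'⟩,
    fun A _ => ⟨?_, fun hA ω hω B _ i j hB =>
      iff_of_hasNil Side101.absorption hZ.limit hnil hB ω hω⟩⟩
  obtain ⟨B, _, i, j, hB, -⟩ := PartT3.exists_completion A Z
  exact ⟨B, inferInstance, i, j, hB⟩

end Vale.Agent.Results.P101.NoCharactersIffAbsorbs
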